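import Vale.Agent.Lib.P062.Sym
import Vale.Agent.Lib.P062b.CertPass
import Vale.Agent.Lib.P062b.CertR1x1
import Vale.Agent.Lib.P062b.CertR2x0
import Vale.Agent.Lib.P062b.CertR2x1
import Vale.Agent.Lib.P062b.CertR2x2
import Vale.Agent.Lib.P062b.CertR3x0
import Vale.Agent.Lib.P062b.CertR3x1
import Vale.Agent.Lib.P062b.CertR3x2
import Vale.Agent.Lib.P062b.CertR3x3
import Vale.Agent.Lib.P062b.CertR4x0
import Vale.Agent.Lib.P062b.CertR4x1
import Vale.Agent.Lib.P062b.CertR5x1

namespace Vale.Agent.Lib.P062b.TopNear4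

open Vale.Agent.Lib.P062

/-- The cells near the origin that are left open. -/
def near : Finset Cell := {((-1), 0), (0, (-1)), (0, 1), (1, 0)}

def listF0 : List ℕ := [126, 146, 147, 148, 149, 150, 168, 169, 170, 171, 172, 173, 174, 175, 176, 177, 190, 191, 192, 193, 194, 195, 196, 197, 198, 199, 200, 212, 213, 214, 215, 216, 217, 218, 219, 220, 221, 222, 223, 236, 237, 238, 239, 240, 241, 242, 243, 244, 245, 246, 259, 260, 261, 262, 263, 265, 266, 267, 268, 282, 283, 284, 285, 286, 287, 288, 289, 290, 291, 292, 305, 306, 307, 308, 309, 310, 311, 312, 313, 314, 329, 330, 331, 332, 333, 334, 335, 336, 337, 353, 354, 355, 356, 357, 378, 379, 380, 401, 403]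

theorem listF0_mask : maskOfList listF0 = 25822503090464082415420963727651494354623571159741577852854138423880409738269066883662848284871615713080574831054983004160 := by
  decide +kernel

theorem handle126 (_hnear : cellOf 126 ∉ near) : MakerForces {(0, 0)} {cellOf 126} :=
  reply_via (s₁ := 1) (s₂ := (-1)) (sw := false) (Or.inl rfl) (Or.inr rfl) (reply_at (j := 402) Vale.Agent.Lib.P062b.CertPass.cert_good (by decide)) (by decide)

theorem handle146 (_hnear : cellOf 146 ∉ near) : MakerForces {(0, 0)} {cellOf 146} :=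
  reply_via (s₁ := 1) (s₂ := (-1)) (sw := false) (Or.inl rfl) (Or.inr rfl) (reply_at (j := 376) Vale.Agent.Lib.P062b.CertPass.cert_good (by decide)) (by decide)

theorem handle147 (_hnear : cellOf 147 ∉ near) : MakerForces {(0, 0)} {cellOf 147} :=
  reply_via (s₁ := 1) (s₂ := (-1)) (sw := false) (Or.inl rfl) (Or.inr rfl) (reply_at (j := 377) Vale.Agent.Lib.P062b.CertPass.cert_good (by decide)) (by decide)

theorem handle148 (_hnear : cellOf 148 ∉ near) : MakerForces {(0, 0)} {cellOf 148} :=
  reply_via (s₁ := (-1)) (s₂ := (-1)) (sw := true) (Or.inr rfl) (Or.inr rfl) (reply_at (j := 292) Vale.Agent.Lib.P062b.CertR5x1.cert_good (by decide)) (by decide)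

theorem handle149 (_hnear : cellOf 149 ∉ near) : MakerForces {(0, 0)} {cellOf 149} :=
  reply_via (s₁ := 1) (s₂ := (-1)) (sw := true) (Or.inl rfl) (Or.inr rfl) (reply_at (j := 269) Vale.Agent.Lib.P062b.CertPass.cert_good (by decide)) (by decide)

theorem handle150 (_hnear : cellOf 150 ∉ near) : MakerForces {(0, 0)} {cellOf 150} :=
  reply_via (s₁ := 1) (s₂ := (-1)) (sw := true) (Or.inl rfl) (Or.inr rfl) (reply_at (j := 292) Vale.Agent.Lib.P062b.CertR5x1.cert_good (by decide)) (by decide)

theorem handle168 (_hnear : cellOf 168 ∉ near) : MakerForces {(0, 0)} {cellOf 168} :=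
  reply_via (s₁ := 1) (s₂ := (-1)) (sw := false) (Or.inl rfl) (Or.inr rfl) (reply_at (j := 352) Vale.Agent.Lib.P062b.CertPass.cert_good (by decide)) (by decide)

theorem handle169 (_hnear : cellOf 169 ∉ near) : MakerForces {(0, 0)} {cellOf 169} :=
  reply_via (s₁ := (-1)) (s₂ := (-1)) (sw := false) (Or.inr rfl) (Or.inr rfl) (reply_at (j := 359) Vale.Agent.Lib.P062b.CertPass.cert_good (by decide)) (by decide)

theorem handle170 (_hnear : cellOf 170 ∉ near) : MakerForces {(0, 0)} {cellOf 170} :=
  reply_via (s₁ := (-1)) (s₂ := (-1)) (sw := false) (Or.inr rfl) (Or.inr rfl) (reply_at (j := 358) Vale.Agent.Lib.P062b.CertPass.cert_good (by decide)) (by decide)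

theorem handle171 (_hnear : cellOf 171 ∉ near) : MakerForces {(0, 0)} {cellOf 171} :=
  reply_via (s₁ := (-1)) (s₂ := (-1)) (sw := true) (Or.inr rfl) (Or.inr rfl) (reply_at (j := 291) Vale.Agent.Lib.P062b.CertR4x1.cert_good (by decide)) (by decide)

theorem handle172 (_hnear : cellOf 172 ∉ near) : MakerForces {(0, 0)} {cellOf 172} :=
  reply_via (s₁ := 1) (s₂ := (-1)) (sw := true) (Or.inl rfl) (Or.inr rfl) (reply_at (j := 268) Vale.Agent.Lib.P062b.CertR4x0.cert_good (by decide)) (by decide)

theorem handle173 (_hnear : cellOf 173 ∉ near) : MakerForces {(0, 0)} {cellOf 173} :=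
  reply_via (s₁ := 1) (s₂ := (-1)) (sw := true) (Or.inl rfl) (Or.inr rfl) (reply_at (j := 291) Vale.Agent.Lib.P062b.CertR4x1.cert_good (by decide)) (by decide)

theorem handle174 (_hnear : cellOf 174 ∉ near) : MakerForces {(0, 0)} {cellOf 174} :=
  reply_via (s₁ := 1) (s₂ := (-1)) (sw := false) (Or.inl rfl) (Or.inr rfl) (reply_at (j := 358) Vale.Agent.Lib.P062b.CertPass.cert_good (by decide)) (by decide)

theorem handle175 (_hnear : cellOf 175 ∉ near) : MakerForces {(0, 0)} {cellOf 175} :=
  reply_via (s₁ := 1) (s₂ := (-1)) (sw := false) (Or.inl rfl) (Or.inr rfl) (reply_at (j := 359) Vale.Agent.Lib.P062b.CertPass.cert_good (by decide)) (by decide)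

theorem handle176 (_hnear : cellOf 176 ∉ near) : MakerForces {(0, 0)} {cellOf 176} :=
  reply_via (s₁ := 1) (s₂ := (-1)) (sw := false) (Or.inl rfl) (Or.inr rfl) (reply_at (j := 360) Vale.Agent.Lib.P062b.CertPass.cert_good (by decide)) (by decide)

theorem handle177 (_hnear : cellOf 177 ∉ near) : MakerForces {(0, 0)} {cellOf 177} :=
  reply_via (s₁ := 1) (s₂ := (-1)) (sw := false) (Or.inl rfl) (Or.inr rfl) (reply_at (j := 361) Vale.Agent.Lib.P062b.CertPass.cert_good (by decide)) (by decide)

theorem handle190 (_hnear : cellOf 190 ∉ near) : MakerForces {(0, 0)} {cellOf 190} :=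
  reply_via (s₁ := 1) (s₂ := (-1)) (sw := false) (Or.inl rfl) (Or.inr rfl) (reply_at (j := 328) Vale.Agent.Lib.P062b.CertPass.cert_good (by decide)) (by decide)

theorem handle191 (_hnear : cellOf 191 ∉ near) : MakerForces {(0, 0)} {cellOf 191} :=
  reply_via (s₁ := (-1)) (s₂ := (-1)) (sw := true) (Or.inr rfl) (Or.inr rfl) (reply_at (j := 359) Vale.Agent.Lib.P062b.CertPass.cert_good (by decide)) (by decide)

theorem handle192 (_hnear : cellOf 192 ∉ near) : MakerForces {(0, 0)} {cellOf 192} :=
  reply_via (s₁ := (-1)) (s₂ := (-1)) (sw := false) (Or.inr rfl) (Or.inr rfl) (reply_at (j := 336) Vale.Agent.Lib.P062b.CertR3x3.cert_good (by decide)) (by decide)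

theorem handle193 (_hnear : cellOf 193 ∉ near) : MakerForces {(0, 0)} {cellOf 193} :=
  reply_via (s₁ := (-1)) (s₂ := (-1)) (sw := true) (Or.inr rfl) (Or.inr rfl) (reply_at (j := 313) Vale.Agent.Lib.P062b.CertR3x2.cert_good (by decide)) (by decide)

theorem handle194 (_hnear : cellOf 194 ∉ near) : MakerForces {(0, 0)} {cellOf 194} :=
  reply_via (s₁ := (-1)) (s₂ := (-1)) (sw := true) (Or.inr rfl) (Or.inr rfl) (reply_at (j := 290) Vale.Agent.Lib.P062b.CertR3x1.cert_good (by decide)) (by decide)

theorem handle195 (_hnear : cellOf 195 ∉ near) : MakerForces {(0, 0)} {cellOf 195} :=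
  reply_via (s₁ := 1) (s₂ := (-1)) (sw := true) (Or.inl rfl) (Or.inr rfl) (reply_at (j := 267) Vale.Agent.Lib.P062b.CertR3x0.cert_good (by decide)) (by decide)

theorem handle196 (_hnear : cellOf 196 ∉ near) : MakerForces {(0, 0)} {cellOf 196} :=
  reply_via (s₁ := 1) (s₂ := (-1)) (sw := true) (Or.inl rfl) (Or.inr rfl) (reply_at (j := 290) Vale.Agent.Lib.P062b.CertR3x1.cert_good (by decide)) (by decide)

theorem handle197 (_hnear : cellOf 197 ∉ near) : MakerForces {(0, 0)} {cellOf 197} :=
  reply_via (s₁ := 1) (s₂ := (-1)) (sw := true) (Or.inl rfl) (Or.inr rfl) (reply_at (j := 313) Vale.Agent.Lib.P062b.CertR3x2.cert_good (by decide)) (by decide)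

theorem handle198 (_hnear : cellOf 198 ∉ near) : MakerForces {(0, 0)} {cellOf 198} :=
  reply_via (s₁ := 1) (s₂ := (-1)) (sw := false) (Or.inl rfl) (Or.inr rfl) (reply_at (j := 336) Vale.Agent.Lib.P062b.CertR3x3.cert_good (by decide)) (by decide)

theorem handle199 (_hnear : cellOf 199 ∉ near) : MakerForces {(0, 0)} {cellOf 199} :=
  reply_via (s₁ := 1) (s₂ := (-1)) (sw := true) (Or.inl rfl) (Or.inr rfl) (reply_at (j := 359) Vale.Agent.Lib.P062b.CertPass.cert_good (by decide)) (by decide)

theorem handle200 (_hnear : cellOf 200 ∉ near) : MakerForces {(0, 0)} {cellOf 200} :=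
  reply_via (s₁ := 1) (s₂ := (-1)) (sw := false) (Or.inl rfl) (Or.inr rfl) (reply_at (j := 338) Vale.Agent.Lib.P062b.CertPass.cert_good (by decide)) (by decide)

theorem handle212 (_hnear : cellOf 212 ∉ near) : MakerForces {(0, 0)} {cellOf 212} :=
  reply_via (s₁ := 1) (s₂ := (-1)) (sw := false) (Or.inl rfl) (Or.inr rfl) (reply_at (j := 304) Vale.Agent.Lib.P062b.CertPass.cert_good (by decide)) (by decide)

theorem handle213 (_hnear : cellOf 213 ∉ near) : MakerForces {(0, 0)} {cellOf 213} :=
  reply_via (s₁ := (-1)) (s₂ := (-1)) (sw := false) (Or.inr rfl) (Or.inr rfl) (reply_at (j := 315) Vale.Agent.Lib.P062b.CertPass.cert_good (by decide)) (by decide)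

theorem handle214 (_hnear : cellOf 214 ∉ near) : MakerForces {(0, 0)} {cellOf 214} :=
  reply_via (s₁ := (-1)) (s₂ := (-1)) (sw := true) (Or.inr rfl) (Or.inr rfl) (reply_at (j := 358) Vale.Agent.Lib.P062b.CertPass.cert_good (by decide)) (by decide)

theorem handle215 (_hnear : cellOf 215 ∉ near) : MakerForces {(0, 0)} {cellOf 215} :=
  reply_via (s₁ := (-1)) (s₂ := (-1)) (sw := false) (Or.inr rfl) (Or.inr rfl) (reply_at (j := 313) Vale.Agent.Lib.P062b.CertR3x2.cert_good (by decide)) (by decide)

theorem handle216 (_hnear : cellOf 216 ∉ near) : MakerForces {(0, 0)} {cellOf 216} :=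
  reply_via (s₁ := (-1)) (s₂ := (-1)) (sw := false) (Or.inr rfl) (Or.inr rfl) (reply_at (j := 312) Vale.Agent.Lib.P062b.CertR2x2.cert_good (by decide)) (by decide)

theorem handle217 (_hnear : cellOf 217 ∉ near) : MakerForces {(0, 0)} {cellOf 217} :=
  reply_via (s₁ := (-1)) (s₂ := (-1)) (sw := true) (Or.inr rfl) (Or.inr rfl) (reply_at (j := 289) Vale.Agent.Lib.P062b.CertR2x1.cert_good (by decide)) (by decide)

theorem handle218 (_hnear : cellOf 218 ∉ near) : MakerForces {(0, 0)} {cellOf 218} :=
  reply_via (s₁ := 1) (s₂ := (-1)) (sw := true) (Or.inl rfl) (Or.inr rfl) (reply_at (j := 266) Vale.Agent.Lib.P062b.CertR2x0.cert_good (by decide)) (by decide)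

theorem handle219 (_hnear : cellOf 219 ∉ near) : MakerForces {(0, 0)} {cellOf 219} :=
  reply_via (s₁ := 1) (s₂ := (-1)) (sw := true) (Or.inl rfl) (Or.inr rfl) (reply_at (j := 289) Vale.Agent.Lib.P062b.CertR2x1.cert_good (by decide)) (by decide)

theorem handle220 (_hnear : cellOf 220 ∉ near) : MakerForces {(0, 0)} {cellOf 220} :=
  reply_via (s₁ := 1) (s₂ := (-1)) (sw := false) (Or.inl rfl) (Or.inr rfl) (reply_at (j := 312) Vale.Agent.Lib.P062b.CertR2x2.cert_good (by decide)) (by decide)

theorem handle221 (_hnear : cellOf 221 ∉ near) : MakerForces {(0, 0)} {cellOf 221} :=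
  reply_via (s₁ := 1) (s₂ := (-1)) (sw := false) (Or.inl rfl) (Or.inr rfl) (reply_at (j := 313) Vale.Agent.Lib.P062b.CertR3x2.cert_good (by decide)) (by decide)

theorem handle222 (_hnear : cellOf 222 ∉ near) : MakerForces {(0, 0)} {cellOf 222} :=
  reply_via (s₁ := 1) (s₂ := (-1)) (sw := true) (Or.inl rfl) (Or.inr rfl) (reply_at (j := 358) Vale.Agent.Lib.P062b.CertPass.cert_good (by decide)) (by decide)

theorem handle223 (_hnear : cellOf 223 ∉ near) : MakerForces {(0, 0)} {cellOf 223} :=
  reply_via (s₁ := 1) (s₂ := (-1)) (sw := false) (Or.inl rfl) (Or.inr rfl) (reply_at (j := 315) Vale.Agent.Lib.P062b.CertPass.cert_good (by decide)) (by decide)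

theorem handle236 (_hnear : cellOf 236 ∉ near) : MakerForces {(0, 0)} {cellOf 236} :=
  reply_via (s₁ := (-1)) (s₂ := (-1)) (sw := false) (Or.inr rfl) (Or.inr rfl) (reply_at (j := 292) Vale.Agent.Lib.P062b.CertR5x1.cert_good (by decide)) (by decide)

theorem handle237 (_hnear : cellOf 237 ∉ near) : MakerForces {(0, 0)} {cellOf 237} :=
  reply_via (s₁ := (-1)) (s₂ := (-1)) (sw := false) (Or.inr rfl) (Or.inr rfl) (reply_at (j := 291) Vale.Agent.Lib.P062b.CertR4x1.cert_good (by decide)) (by decide)

theorem handle238 (_hnear : cellOf 238 ∉ near) : MakerForces {(0, 0)} {cellOf 238} :=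
  reply_via (s₁ := (-1)) (s₂ := (-1)) (sw := false) (Or.inr rfl) (Or.inr rfl) (reply_at (j := 290) Vale.Agent.Lib.P062b.CertR3x1.cert_good (by decide)) (by decide)

theorem handle239 (_hnear : cellOf 239 ∉ near) : MakerForces {(0, 0)} {cellOf 239} :=
  reply_via (s₁ := (-1)) (s₂ := (-1)) (sw := false) (Or.inr rfl) (Or.inr rfl) (reply_at (j := 289) Vale.Agent.Lib.P062b.CertR2x1.cert_good (by decide)) (by decide)

theorem handle240 (_hnear : cellOf 240 ∉ near) : MakerForces {(0, 0)} {cellOf 240} :=
  reply_via (s₁ := (-1)) (s₂ := (-1)) (sw := false) (Or.inr rfl) (Or.inr rfl) (reply_at (j := 288) Vale.Agent.Lib.P062b.CertR1x1.cert_good (by decide)) (by decide)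

theorem handle241 (hnear : cellOf 241 ∉ near) : MakerForces {(0, 0)} {cellOf 241} :=
  absurd (by decide) hnear

theorem handle242 (_hnear : cellOf 242 ∉ near) : MakerForces {(0, 0)} {cellOf 242} :=
  reply_via (s₁ := 1) (s₂ := (-1)) (sw := false) (Or.inl rfl) (Or.inr rfl) (reply_at (j := 288) Vale.Agent.Lib.P062b.CertR1x1.cert_good (by decide)) (by decide)

theorem handle243 (_hnear : cellOf 243 ∉ near) : MakerForces {(0, 0)} {cellOf 243} :=
  reply_via (s₁ := 1) (s₂ := (-1)) (sw := false) (Or.inl rfl) (Or.inr rfl) (reply_at (j := 289) Vale.Agent.Lib.P062b.CertR2x1.cert_good (by decide)) (by decide)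

theorem handle244 (_hnear : cellOf 244 ∉ near) : MakerForces {(0, 0)} {cellOf 244} :=
  reply_via (s₁ := 1) (s₂ := (-1)) (sw := false) (Or.inl rfl) (Or.inr rfl) (reply_at (j := 290) Vale.Agent.Lib.P062b.CertR3x1.cert_good (by decide)) (by decide)

theorem handle245 (_hnear : cellOf 245 ∉ near) : MakerForces {(0, 0)} {cellOf 245} :=
  reply_via (s₁ := 1) (s₂ := (-1)) (sw := false) (Or.inl rfl) (Or.inr rfl) (reply_at (j := 291) Vale.Agent.Lib.P062b.CertR4x1.cert_good (by decide)) (by decide)

theorem handle246 (_hnear : cellOf 246 ∉ near) : MakerForces {(0, 0)} {cellOf 246} :=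
  reply_via (s₁ := 1) (s₂ := (-1)) (sw := false) (Or.inl rfl) (Or.inr rfl) (reply_at (j := 292) Vale.Agent.Lib.P062b.CertR5x1.cert_good (by decide)) (by decide)

theorem handle259 (_hnear : cellOf 259 ∉ near) : MakerForces {(0, 0)} {cellOf 259} :=
  reply_via (s₁ := (-1)) (s₂ := 1) (sw := false) (Or.inr rfl) (Or.inl rfl) (reply_at (j := 269) Vale.Agent.Lib.P062b.CertPass.cert_good (by decide)) (by decide)

theorem handle260 (_hnear : cellOf 260 ∉ near) : MakerForces {(0, 0)} {cellOf 260} :=
  reply_via (s₁ := (-1)) (s₂ := 1) (sw := false) (Or.inr rfl) (Or.inl rfl) (reply_at (j := 268) Vale.Agent.Lib.P062b.CertR4x0.cert_good (by decide)) (by decide)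

theorem handle261 (_hnear : cellOf 261 ∉ near) : MakerForces {(0, 0)} {cellOf 261} :=
  reply_via (s₁ := (-1)) (s₂ := 1) (sw := false) (Or.inr rfl) (Or.inl rfl) (reply_at (j := 267) Vale.Agent.Lib.P062b.CertR3x0.cert_good (by decide)) (by decide)

theorem handle262 (_hnear : cellOf 262 ∉ near) : MakerForces {(0, 0)} {cellOf 262} :=
  reply_via (s₁ := (-1)) (s₂ := 1) (sw := false) (Or.inr rfl) (Or.inl rfl) (reply_at (j := 266) Vale.Agent.Lib.P062b.CertR2x0.cert_good (by decide)) (by decide)

theorem handle263 (hnear : cellOf 263 ∉ near) : MakerForces {(0, 0)} {cellOf 263} :=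
  absurd (by decide) hnear

theorem handle265 (hnear : cellOf 265 ∉ near) : MakerForces {(0, 0)} {cellOf 265} :=
  absurd (by decide) hnear

theorem handle266 (_hnear : cellOf 266 ∉ near) : MakerForces {(0, 0)} {cellOf 266} :=
  reply_via (s₁ := 1) (s₂ := 1) (sw := false) (Or.inl rfl) (Or.inl rfl) (reply_at (j := 266) Vale.Agent.Lib.P062b.CertR2x0.cert_good (by decide)) (by decide)

theorem handle267 (_hnear : cellOf 267 ∉ near) : MakerForces {(0, 0)} {cellOf 267} :=
  reply_via (s₁ := 1) (s₂ := 1) (sw := false) (Or.inl rfl) (Or.inl rfl) (reply_at (j := 267) Vale.Agent.Lib.P062b.CertR3x0.cert_good (by decide)) (by decide)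

theorem handle268 (_hnear : cellOf 268 ∉ near) : MakerForces {(0, 0)} {cellOf 268} :=
  reply_via (s₁ := 1) (s₂ := 1) (sw := false) (Or.inl rfl) (Or.inl rfl) (reply_at (j := 268) Vale.Agent.Lib.P062b.CertR4x0.cert_good (by decide)) (by decide)

theorem handle282 (_hnear : cellOf 282 ∉ near) : MakerForces {(0, 0)} {cellOf 282} :=
  reply_via (s₁ := (-1)) (s₂ := 1) (sw := false) (Or.inr rfl) (Or.inl rfl) (reply_at (j := 292) Vale.Agent.Lib.P062b.CertR5x1.cert_good (by decide)) (by decide)

theorem handle283 (_hnear : cellOf 283 ∉ near) : MakerForces {(0, 0)} {cellOf 283} :=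
  reply_via (s₁ := (-1)) (s₂ := 1) (sw := false) (Or.inr rfl) (Or.inl rfl) (reply_at (j := 291) Vale.Agent.Lib.P062b.CertR4x1.cert_good (by decide)) (by decide)

theorem handle284 (_hnear : cellOf 284 ∉ near) : MakerForces {(0, 0)} {cellOf 284} :=
  reply_via (s₁ := (-1)) (s₂ := 1) (sw := false) (Or.inr rfl) (Or.inl rfl) (reply_at (j := 290) Vale.Agent.Lib.P062b.CertR3x1.cert_good (by decide)) (by decide)

theorem handle285 (_hnear : cellOf 285 ∉ near) : MakerForces {(0, 0)} {cellOf 285} :=
  reply_via (s₁ := (-1)) (s₂ := 1) (sw := false) (Or.inr rfl) (Or.inl rfl) (reply_at (j := 289) Vale.Agent.Lib.P062b.CertR2x1.cert_good (by decide)) (by decide)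

theorem handle286 (_hnear : cellOf 286 ∉ near) : MakerForces {(0, 0)} {cellOf 286} :=
  reply_via (s₁ := (-1)) (s₂ := 1) (sw := false) (Or.inr rfl) (Or.inl rfl) (reply_at (j := 288) Vale.Agent.Lib.P062b.CertR1x1.cert_good (by decide)) (by decide)

theorem handle287 (hnear : cellOf 287 ∉ near) : MakerForces {(0, 0)} {cellOf 287} :=
  absurd (by decide) hnear

theorem handle288 (_hnear : cellOf 288 ∉ near) : MakerForces {(0, 0)} {cellOf 288} :=
  reply_via (s₁ := 1) (s₂ := 1) (sw := false) (Or.inl rfl) (Or.inl rfl) (reply_at (j := 288) Vale.Agent.Lib.P062b.CertR1x1.cert_good (by decide)) (by decide)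

theorem handle289 (_hnear : cellOf 289 ∉ near) : MakerForces {(0, 0)} {cellOf 289} :=
  reply_via (s₁ := 1) (s₂ := 1) (sw := false) (Or.inl rfl) (Or.inl rfl) (reply_at (j := 289) Vale.Agent.Lib.P062b.CertR2x1.cert_good (by decide)) (by decide)

theorem handle290 (_hnear : cellOf 290 ∉ near) : MakerForces {(0, 0)} {cellOf 290} :=
  reply_via (s₁ := 1) (s₂ := 1) (sw := false) (Or.inl rfl) (Or.inl rfl) (reply_at (j := 290) Vale.Agent.Lib.P062b.CertR3x1.cert_good (by decide)) (by decide)

theorem handle291 (_hnear : cellOf 291 ∉ near) : MakerForces {(0, 0)} {cellOf 291} :=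
  reply_via (s₁ := 1) (s₂ := 1) (sw := false) (Or.inl rfl) (Or.inl rfl) (reply_at (j := 291) Vale.Agent.Lib.P062b.CertR4x1.cert_good (by decide)) (by decide)

theorem handle292 (_hnear : cellOf 292 ∉ near) : MakerForces {(0, 0)} {cellOf 292} :=
  reply_via (s₁ := 1) (s₂ := 1) (sw := false) (Or.inl rfl) (Or.inl rfl) (reply_at (j := 292) Vale.Agent.Lib.P062b.CertR5x1.cert_good (by decide)) (by decide)

theorem handle305 (_hnear : cellOf 305 ∉ near) : MakerForces {(0, 0)} {cellOf 305} :=
  reply_via (s₁ := (-1)) (s₂ := 1) (sw := false) (Or.inr rfl) (Or.inl rfl) (reply_at (j := 315) Vale.Agent.Lib.P062b.CertPass.cert_good (by decide)) (by decide)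

theorem handle306 (_hnear : cellOf 306 ∉ near) : MakerForces {(0, 0)} {cellOf 306} :=
  reply_via (s₁ := (-1)) (s₂ := 1) (sw := true) (Or.inr rfl) (Or.inl rfl) (reply_at (j := 358) Vale.Agent.Lib.P062b.CertPass.cert_good (by decide)) (by decide)

theorem handle307 (_hnear : cellOf 307 ∉ near) : MakerForces {(0, 0)} {cellOf 307} :=
  reply_via (s₁ := (-1)) (s₂ := 1) (sw := false) (Or.inr rfl) (Or.inl rfl) (reply_at (j := 313) Vale.Agent.Lib.P062b.CertR3x2.cert_good (by decide)) (by decide)

theorem handle308 (_hnear : cellOf 308 ∉ near) : MakerForces {(0, 0)} {cellOf 308} :=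
  reply_via (s₁ := (-1)) (s₂ := 1) (sw := false) (Or.inr rfl) (Or.inl rfl) (reply_at (j := 312) Vale.Agent.Lib.P062b.CertR2x2.cert_good (by decide)) (by decide)

theorem handle309 (_hnear : cellOf 309 ∉ near) : MakerForces {(0, 0)} {cellOf 309} :=
  reply_via (s₁ := (-1)) (s₂ := 1) (sw := true) (Or.inr rfl) (Or.inl rfl) (reply_at (j := 289) Vale.Agent.Lib.P062b.CertR2x1.cert_good (by decide)) (by decide)

theorem handle310 (_hnear : cellOf 310 ∉ near) : MakerForces {(0, 0)} {cellOf 310} :=
  reply_via (s₁ := 1) (s₂ := 1) (sw := true) (Or.inl rfl) (Or.inl rfl) (reply_at (j := 266) Vale.Agent.Lib.P062b.CertR2x0.cert_good (by decide)) (by decide)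

theorem handle311 (_hnear : cellOf 311 ∉ near) : MakerForces {(0, 0)} {cellOf 311} :=
  reply_via (s₁ := 1) (s₂ := 1) (sw := true) (Or.inl rfl) (Or.inl rfl) (reply_at (j := 289) Vale.Agent.Lib.P062b.CertR2x1.cert_good (by decide)) (by decide)

theorem handle312 (_hnear : cellOf 312 ∉ near) : MakerForces {(0, 0)} {cellOf 312} :=
  reply_via (s₁ := 1) (s₂ := 1) (sw := false) (Or.inl rfl) (Or.inl rfl) (reply_at (j := 312) Vale.Agent.Lib.P062b.CertR2x2.cert_good (by decide)) (by decide)

theorem handle313 (_hnear : cellOf 313 ∉ near) : MakerForces {(0, 0)} {cellOf 313} :=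
  reply_via (s₁ := 1) (s₂ := 1) (sw := false) (Or.inl rfl) (Or.inl rfl) (reply_at (j := 313) Vale.Agent.Lib.P062b.CertR3x2.cert_good (by decide)) (by decide)

theorem handle314 (_hnear : cellOf 314 ∉ near) : MakerForces {(0, 0)} {cellOf 314} :=
  reply_via (s₁ := 1) (s₂ := 1) (sw := true) (Or.inl rfl) (Or.inl rfl) (reply_at (j := 358) Vale.Agent.Lib.P062b.CertPass.cert_good (by decide)) (by decide)

theorem handle329 (_hnear : cellOf 329 ∉ near) : MakerForces {(0, 0)} {cellOf 329} :=
  reply_via (s₁ := (-1)) (s₂ := 1) (sw := true) (Or.inr rfl) (Or.inl rfl) (reply_at (j := 359) Vale.Agent.Lib.P062b.CertPass.cert_good (by decide)) (by decide)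

theorem handle330 (_hnear : cellOf 330 ∉ near) : MakerForces {(0, 0)} {cellOf 330} :=
  reply_via (s₁ := (-1)) (s₂ := 1) (sw := false) (Or.inr rfl) (Or.inl rfl) (reply_at (j := 336) Vale.Agent.Lib.P062b.CertR3x3.cert_good (by decide)) (by decide)

theorem handle331 (_hnear : cellOf 331 ∉ near) : MakerForces {(0, 0)} {cellOf 331} :=
  reply_via (s₁ := (-1)) (s₂ := 1) (sw := true) (Or.inr rfl) (Or.inl rfl) (reply_at (j := 313) Vale.Agent.Lib.P062b.CertR3x2.cert_good (by decide)) (by decide)

theorem handle332 (_hnear : cellOf 332 ∉ near) : MakerForces {(0, 0)} {cellOf 332} :=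
  reply_via (s₁ := (-1)) (s₂ := 1) (sw := true) (Or.inr rfl) (Or.inl rfl) (reply_at (j := 290) Vale.Agent.Lib.P062b.CertR3x1.cert_good (by decide)) (by decide)

theorem handle333 (_hnear : cellOf 333 ∉ near) : MakerForces {(0, 0)} {cellOf 333} :=
  reply_via (s₁ := 1) (s₂ := 1) (sw := true) (Or.inl rfl) (Or.inl rfl) (reply_at (j := 267) Vale.Agent.Lib.P062b.CertR3x0.cert_good (by decide)) (by decide)

theorem handle334 (_hnear : cellOf 334 ∉ near) : MakerForces {(0, 0)} {cellOf 334} :=
  reply_via (s₁ := 1) (s₂ := 1) (sw := true) (Or.inl rfl) (Or.inl rfl) (reply_at (j := 290) Vale.Agent.Lib.P062b.CertR3x1.cert_good (by decide)) (by decide)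

theorem handle335 (_hnear : cellOf 335 ∉ near) : MakerForces {(0, 0)} {cellOf 335} :=
  reply_via (s₁ := 1) (s₂ := 1) (sw := true) (Or.inl rfl) (Or.inl rfl) (reply_at (j := 313) Vale.Agent.Lib.P062b.CertR3x2.cert_good (by decide)) (by decide)

theorem handle336 (_hnear : cellOf 336 ∉ near) : MakerForces {(0, 0)} {cellOf 336} :=
  reply_via (s₁ := 1) (s₂ := 1) (sw := false) (Or.inl rfl) (Or.inl rfl) (reply_at (j := 336) Vale.Agent.Lib.P062b.CertR3x3.cert_good (by decide)) (by decide)

theorem handle337 (_hnear : cellOf 337 ∉ near) : MakerForces {(0, 0)} {cellOf 337} :=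
  reply_via (s₁ := 1) (s₂ := 1) (sw := true) (Or.inl rfl) (Or.inl rfl) (reply_at (j := 359) Vale.Agent.Lib.P062b.CertPass.cert_good (by decide)) (by decide)

theorem handle353 (_hnear : cellOf 353 ∉ near) : MakerForces {(0, 0)} {cellOf 353} :=
  reply_via (s₁ := (-1)) (s₂ := 1) (sw := false) (Or.inr rfl) (Or.inl rfl) (reply_at (j := 359) Vale.Agent.Lib.P062b.CertPass.cert_good (by decide)) (by decide)

theorem handle354 (_hnear : cellOf 354 ∉ near) : MakerForces {(0, 0)} {cellOf 354} :=
  reply_via (s₁ := (-1)) (s₂ := 1) (sw := false) (Or.inr rfl) (Or.inl rfl) (reply_at (j := 358) Vale.Agent.Lib.P062b.CertPass.cert_good (by decide)) (by decide)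

theorem handle355 (_hnear : cellOf 355 ∉ near) : MakerForces {(0, 0)} {cellOf 355} :=
  reply_via (s₁ := (-1)) (s₂ := 1) (sw := true) (Or.inr rfl) (Or.inl rfl) (reply_at (j := 291) Vale.Agent.Lib.P062b.CertR4x1.cert_good (by decide)) (by decide)

theorem handle356 (_hnear : cellOf 356 ∉ near) : MakerForces {(0, 0)} {cellOf 356} :=
  reply_via (s₁ := 1) (s₂ := 1) (sw := true) (Or.inl rfl) (Or.inl rfl) (reply_at (j := 268) Vale.Agent.Lib.P062b.CertR4x0.cert_good (by decide)) (by decide)

theorem handle357 (_hnear : cellOf 357 ∉ near) : MakerForces {(0, 0)} {cellOf 357} :=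
  reply_via (s₁ := 1) (s₂ := 1) (sw := true) (Or.inl rfl) (Or.inl rfl) (reply_at (j := 291) Vale.Agent.Lib.P062b.CertR4x1.cert_good (by decide)) (by decide)

theorem handle378 (_hnear : cellOf 378 ∉ near) : MakerForces {(0, 0)} {cellOf 378} :=
  reply_via (s₁ := (-1)) (s₂ := 1) (sw := true) (Or.inr rfl) (Or.inl rfl) (reply_at (j := 292) Vale.Agent.Lib.P062b.CertR5x1.cert_good (by decide)) (by decide)

theorem handle379 (_hnear : cellOf 379 ∉ near) : MakerForces {(0, 0)} {cellOf 379} :=
  reply_via (s₁ := 1) (s₂ := 1) (sw := true) (Or.inl rfl) (Or.inl rfl) (reply_at (j := 269) Vale.Agent.Lib.P062b.CertPass.cert_good (by decide)) (by decide)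

theorem handle380 (_hnear : cellOf 380 ∉ near) : MakerForces {(0, 0)} {cellOf 380} :=
  reply_via (s₁ := 1) (s₂ := 1) (sw := true) (Or.inl rfl) (Or.inl rfl) (reply_at (j := 292) Vale.Agent.Lib.P062b.CertR5x1.cert_good (by decide)) (by decide)

theorem handle401 (_hnear : cellOf 401 ∉ near) : MakerForces {(0, 0)} {cellOf 401} :=
  reply_via (s₁ := 1) (s₂ := (-1)) (sw := false) (Or.inl rfl) (Or.inr rfl) (reply_at (j := 125) Vale.Agent.Lib.P062b.CertPass.cert_good (by decide)) (by decide)

theorem handle403 (_hnear : cellOf 403 ∉ near) : MakerForces {(0, 0)} {cellOf 403} :=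
  reply_via (s₁ := 1) (s₂ := (-1)) (sw := false) (Or.inl rfl) (Or.inr rfl) (reply_at (j := 127) Vale.Agent.Lib.P062b.CertPass.cert_good (by decide)) (by decide)

set_option maxRecDepth 100000 in
theorem reply_table (i : ℕ) (hi : i ∈ listF0) (hnear : cellOf i ∉ near) : MakerForces {(0, 0)} {cellOf i} := by
  simp only [listF0, List.mem_cons, List.not_mem_nil, or_false] at hi
  rcases hi with rfl | rfl | rfl | rfl | rfl | rfl | rfl | rfl | rfl | rfl | rfl | rfl | rfl | rfl | rfl | rfl | rfl | rfl | rfl | rfl | rfl | rfl | rfl | rfl | rfl | rfl | rfl | rfl | rfl | rfl | rfl | rfl | rfl | rfl | rfl | rfl | rfl | rfl | rfl | rfl | rfl | rfl | rfl | rfl | rfl | rfl | rfl | rfl | rfl | rfl | rfl | rfl | rfl | rfl | rfl | rfl | rfl | rfl | rfl | rfl | rfl | rfl | rfl | rfl | rfl | rfl | rfl | rfl | rfl | rfl | rfl | rfl | rfl | rfl | rfl | rfl | rfl | rfl | rfl | rfl | rfl | rfl | rfl | rfl | rfl | rfl | rfl | rfl | rfl | rfl | rfl | rfl | rfl | rfl | rfl | rfl | rfl | rfl | rfl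
  · exact handle126 hnear
  · exact handle146 hnear
  · exact handle147 hnear
  · exact handle148 hnear
  · exact handle149 hnear
  · exact handle150 hnear
  · exact handle168 hnear
  · exact handle169 hnear
  · exact handle170 hnear
  · exact handle171 hnear
  · exact handle172 hnear
  · exact handle173 hnear
  · exact handle174 hnear
  · exact handle175 hnear
  · exact handle176 hnear
  · exact handle177 hnear
  · exact handle190 hnear
  · exact handle191 hnear
  · exact handle192 hnear
  · exact handle193 hnear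
  · exact handle194 hnear
  · exact handle195 hnear
  · exact handle196 hnear
  · exact handle197 hnear
  · exact handle198 hnear
  · exact handle199 hnear
  · exact handle200 hnear
  · exact handle212 hnear
  · exact handle213 hnear
  · exact handle214 hnear
  · exact handle215 hnear
  · exact handle216 hnear
  · exact handle217 hnear
  · exact handle218 hnear
  · exact handle219 hnear
  · exact handle220 hnear
  · exact handle221 hnear
  · exact handle222 hnear
  · exact handle223 hnear
  · exact handle236 hnear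
  · exact handle237 hnear
  · exact handle238 hnear
  · exact handle239 hnear
  · exact handle240 hnear
  · exact handle241 hnear
  · exact handle242 hnear
  · exact handle243 hnear
  · exact handle244 hnear
  · exact handle245 hnear
  · exact handle246 hnear
  · exact handle259 hnear
  · exact handle260 hnear
  · exact handle261 hnear
  · exact handle262 hnear
  · exact handle263 hnear
  · exact handle265 hnear
  · exact handle266 hnear
  · exact handle267 hnear
  · exact handle268 hnear
  · exact handle282 hnear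
  · exact handle283 hnear
  · exact handle284 hnear
  · exact handle285 hnear
  · exact handle286 hnear
  · exact handle287 hnear
  · exact handle288 hnear
  · exact handle289 hnear
  · exact handle290 hnear
  · exact handle291 hnear
  · exact handle292 hnear
  · exact handle305 hnear
  · exact handle306 hnear
  · exact handle307 hnear
  · exact handle308 hnear
  · exact handle309 hnear
  · exact handle310 hnear
  · exact handle311 hnear
  · exact handle312 hnear
  · exact handle313 hnear
  · exact handle314 hnear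
  · exact handle329 hnear
  · exact handle330 hnear
  · exact handle331 hnear
  · exact handle332 hnear
  · exact handle333 hnear
  · exact handle334 hnear
  · exact handle335 hnear
  · exact handle336 hnear
  · exact handle337 hnear
  · exact handle353 hnear
  · exact handle354 hnear
  · exact handle355 hnear
  · exact handle356 hnear
  · exact handle357 hnear
  · exact handle378 hnear
  · exact handle379 hnear
  · exact handle380 hnear
  · exact handle401 hnear
  · exact handle403 hnear

theorem reply_all (y : Cell) (hnear : y ∉ near) : MakerForces {(0, 0)} {y} := by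
  by_cases h : ∀ j, tb 25822503090464082415420963727651494354623571159741577852854138423880409738269066883662848284871615713080574831054983004160 j = true → cellOf j ≠ y
  · exact reply_of_good Vale.Agent.Lib.P062b.CertPass.cert_good h
  · push Not at h
    obtain ⟨j, hj, rfl⟩ := h
    apply reply_table j _ hnear
    apply mem_of_tb_maskOfList
    rw [listF0_mask]
    exact hj

end Vale.Agent.Lib.P062b.TopNear4
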